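import Vale.Agent.P146.H615.Ex
import Vale.Agent.P146.H339.BigRoot

/-!
# P146, block 11-BR: the overlaps at two levels, and the big root in `cx`/`ex` form

`lw μ w` is the law with density proportional to `w` as a measure; `q12_var` is the conditional
variance bound for the inner product of the mean vectors at two nested frozen sets; `q12` is the
hypothesis `h12` of `H339.BR.big_root`; `br_ex` is `H339.BR.big_root_L1` with all inputs in
`cx`/`ex` form.
-/

open MeasureTheory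

namespace Vale.Agent.P146.H792

open Vale.Agent.P146.H646 Vale.Agent.P146.H615

set_option linter.unusedSectionVars false

variable {κ : Type*} [Fintype κ] [DecidableEq κ] {μ : κ → Measure ℝ}
  [∀ e, IsProbabilityMeasure (μ e)] {w Ψ Φ Q : (κ → ℝ) → ℝ} {K K' : Finset κ}

/-! ### the law as a measure -/

/-- the law with density proportional to `w`. -/
noncomputable def lw (μ : κ → Measure ℝ) [∀ e, IsProbabilityMeasure (μ e)]
    (w : (κ → ℝ) → ℝ) : Measure (κ → ℝ) :=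
  (Measure.pi μ).withDensity fun z => ENNReal.ofReal (w z / ∫ y, w y ∂(Measure.pi μ))

section law
variable (hw : Wt μ w)
include hw

lemma lw_nn_meas : Measurable fun z => Real.toNNReal (w z / ∫ y, w y ∂(Measure.pi μ)) :=
  (hw.meas.div_const _).real_toNNReal

theorem int_lw (Ψ : (κ → ℝ) → ℝ) : ∫ z, Ψ z ∂(lw μ w) = ex μ w Ψ := by
  have ht := hw.tot_pos
  have e1 : lw μ w = (Measure.pi μ).withDensity
      fun z => ((Real.toNNReal (w z / ∫ y, w y ∂(Measure.pi μ)) : NNReal) : ENNReal) := rfl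
  rw [e1, integral_withDensity_eq_integral_smul (lw_nn_meas hw)]
  unfold ex
  rw [← integral_div]
  refine integral_congr_ae (Filter.Eventually.of_forall fun z => ?_)
  show Real.toNNReal (w z / ∫ y, w y ∂(Measure.pi μ)) • Ψ z = w z * Ψ z / _
  rw [NNReal.smul_def, Real.coe_toNNReal _ (div_nonneg (hw.pos z).le ht.le), smul_eq_mul]
  ring

theorem prob_lw : IsProbabilityMeasure (lw μ w) := by
  have ht := hw.tot_pos
  constructor
  unfold lw
  rw [withDensity_apply _ MeasurableSet.univ, Measure.restrict_univ,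
    ← ofReal_integral_eq_lintegral_ofReal (hw.int.div_const _)
      (Filter.Eventually.of_forall fun z => div_nonneg (hw.pos z).le ht.le),
    integral_div, div_self ht.ne', ENNReal.ofReal_one]

lemma int_bm (h : BM Ψ) : Integrable Ψ (lw μ w) := by
  have := prob_lw hw
  obtain ⟨C, hC⟩ := h.bd
  exact Integrable.of_bound (C := C) h.meas.aestronglyMeasurable
    (Filter.Eventually.of_forall fun z => by rw [Real.norm_eq_abs]; exact hC z)

/-- the probability of a measurable set as a mean. -/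
theorem real_lw {A : Set (κ → ℝ)} (hA : MeasurableSet A) :
    (lw μ w).real A = ex μ w (A.indicator fun _ => 1) := by
  rw [← int_lw hw, integral_indicator hA, setIntegral_const, smul_eq_mul, mul_one]

theorem set_lw {A : Set (κ → ℝ)} (hA : MeasurableSet A) (Ψ : (κ → ℝ) → ℝ) :
    ∫ z in A, Ψ z ∂(lw μ w) = ex μ w (fun z => A.indicator (fun _ => 1) z * Ψ z) := by
  rw [← int_lw hw, ← integral_indicator hA]
  refine integral_congr_ae (Filter.Eventually.of_forall fun z => ?_)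
  by_cases h : z ∈ A
  · simp only [Set.indicator_of_mem h, one_mul]
  · simp only [Set.indicator_of_notMem h, zero_mul]

end law

lemma bm_ind {A : Set (κ → ℝ)} (hA : MeasurableSet A) : BM (A.indicator fun _ => (1 : ℝ)) := by
  refine ⟨measurable_const.indicator hA, 1, fun z => ?_⟩
  by_cases h : z ∈ A
  · rw [Set.indicator_of_mem h, abs_one]
  · rw [Set.indicator_of_notMem h, abs_zero]; exact zero_le_one

lemma dep_ind {Q : (κ → ℝ) → ℝ} (hQ : Dep K Q) (S : Set ℝ) :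
    Dep K ({z | Q z ∈ S}.indicator fun _ => (1 : ℝ)) := by
  intro z z'
  have e : glue K z z' ∈ {z | Q z ∈ S} ↔ z ∈ {z | Q z ∈ S} := by
    show Q (glue K z z') ∈ S ↔ Q z ∈ S
    rw [hQ z z']
  by_cases h : z ∈ {z | Q z ∈ S}
  · rw [Set.indicator_of_mem h, Set.indicator_of_mem (e.2 h)]
  · rw [Set.indicator_of_notMem h, Set.indicator_of_notMem (fun h' => h (e.1 h'))]

/-- the second moment of a conditional mean increases on every event of the coarser level. -/
theorem hmono_ex (hw : Wt μ w) (hK : K ⊆ K') (h : BM Φ) {A : Set (κ → ℝ)}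
    (hA : MeasurableSet A) (hd : Dep K (A.indicator fun _ => (1 : ℝ))) :
    ∫ z in A, cx μ K w Φ z ^ 2 ∂(lw μ w) ≤ ∫ z in A, cx μ K' w Φ z ^ 2 ∂(lw μ w) := by
  rw [set_lw hw hA, set_lw hw hA]
  have hb := hw.bm_cx K' h
  have hb2 := bsq hb
  rw [← ex_cx hw hd (bm_ind hA) hb2]
  refine ex_mono hw ((bm_ind hA).mul (bsq (hw.bm_cx K h))) ((bm_ind hA).mul (hw.bm_cx K hb2))
    fun z => ?_
  refine mul_le_mul_of_nonneg_left ?_ (Set.indicator_nonneg (fun _ _ => zero_le_one) z)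
  have h1 := cx_sq_le hw (K := K) hb z
  rwa [cx_cx hw hK h] at h1

/-! ### the conditional variance of the inner product -/

section q12

variable {Ω : Type*} [MeasurableSpace Ω] {av : (Ω → ℝ) → (κ → ℝ) → ℝ} {J : Type*}
  {S : Finset J} {σ : J → Ω → ℝ}

/-- the mean vector at the frozen set `K`. -/
noncomputable def mv (μ : κ → Measure ℝ) [∀ e, IsProbabilityMeasure (μ e)] (K : Finset κ)
    (w : (κ → ℝ) → ℝ) (av : (Ω → ℝ) → (κ → ℝ) → ℝ) (σ : J → Ω → ℝ) (j : J) (z : κ → ℝ) : ℝ :=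
  cx μ K w (av (σ j)) z

/-- the second moment matrix at the frozen set `K`. -/
noncomputable def mc (μ : κ → Measure ℝ) [∀ e, IsProbabilityMeasure (μ e)] (K : Finset κ)
    (w : (κ → ℝ) → ℝ) (av : (Ω → ℝ) → (κ → ℝ) → ℝ) (σ : J → Ω → ℝ) (i j : J) (z : κ → ℝ) : ℝ :=
  cx μ K w (av fun ω => σ i ω * σ j ω) z

/-- squared length of the mean vector. -/
noncomputable def q2 (μ : κ → Measure ℝ) [∀ e, IsProbabilityMeasure (μ e)] (K : Finset κ)
    (w : (κ → ℝ) → ℝ) (av : (Ω → ℝ) → (κ → ℝ) → ℝ) (S : Finset J) (σ : J → Ω → ℝ)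
    (z : κ → ℝ) : ℝ := ∑ j ∈ S, mv μ K w av σ j z ^ 2

/-- squared distance of the second moment matrix to rank one. -/
noncomputable def rk (μ : κ → Measure ℝ) [∀ e, IsProbabilityMeasure (μ e)] (K : Finset κ)
    (w : (κ → ℝ) → ℝ) (av : (Ω → ℝ) → (κ → ℝ) → ℝ) (S : Finset J) (σ : J → Ω → ℝ)
    (z : κ → ℝ) : ℝ :=
  ∑ i ∈ S, ∑ j ∈ S, (mc μ K w av σ i j z - mv μ K w av σ i z * mv μ K w av σ j z) ^ 2

variable (hw : Wt μ w) (hA : Av av) (hσ : ∀ j ∈ S, Bd (σ j))
include hw hA hσ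

lemma bm_mv {j : J} (hj : j ∈ S) : BM (mv μ K w av σ j) := hw.bm_cx K (hA.bm (hσ j hj))

lemma bm_mc {i j : J} (hi : i ∈ S) (hj : j ∈ S) : BM (mc μ K w av σ i j) :=
  hw.bm_cx K (hA.bm ((hσ i hi).mul (hσ j hj)))

lemma bm_q2 : BM (q2 μ K w av S σ) := BM.sum S fun _ hj => bsq (bm_mv hw hA hσ hj)

lemma bm_rk : BM (rk μ K w av S σ) :=
  BM.sum S fun _ hi => BM.sum S fun _ hj =>
    bsq ((bm_mc hw hA hσ hi hj).sub ((bm_mv hw hA hσ hi).mul (bm_mv hw hA hσ hj)))

omit hw hA hσ in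
lemma dep_q2 : Dep K (q2 μ K w av S σ) :=
  Dep.sum S fun _ _ => Dep.sq (dep_cx K)

omit hw hA hσ in
lemma q2_nonneg (z : κ → ℝ) : 0 ≤ q2 μ K w av S σ z :=
  Finset.sum_nonneg fun _ _ => sq_nonneg _

omit hw hA hσ in
lemma rk_nonneg (z : κ → ℝ) : 0 ≤ rk μ K w av S σ z :=
  Finset.sum_nonneg fun _ _ => Finset.sum_nonneg fun _ _ => sq_nonneg _

omit hw hA hσ in
lemma dep_mv (j : J) : Dep K (mv μ K w av σ j) := dep_cx K

/-- the inner product of the mean vectors. -/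
noncomputable def inn (μ : κ → Measure ℝ) [∀ e, IsProbabilityMeasure (μ e)] (K K' : Finset κ)
    (w : (κ → ℝ) → ℝ) (av : (Ω → ℝ) → (κ → ℝ) → ℝ) (S : Finset J) (σ : J → Ω → ℝ)
    (z : κ → ℝ) : ℝ := ∑ j ∈ S, mv μ K w av σ j z * mv μ K' w av σ j z

lemma bm_inn : BM (inn μ K K' w av S σ) :=
  BM.sum S fun _ hj => (bm_mv hw hA hσ hj).mul (bm_mv hw hA hσ hj)

/-- the inner product of the mean vectors has the conditional mean `|M|²`. -/
theorem cx_inn (hK : K ⊆ K') (z : κ → ℝ) :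
    cx μ K w (inn μ K K' w av S σ) z = q2 μ K w av S σ z := by
  unfold inn
  rw [cx_sum hw S fun j hj => (bm_mv hw hA hσ hj).mul (bm_mv hw hA hσ hj)]
  unfold q2
  refine Finset.sum_congr rfl fun j hj => ?_
  rw [cx_mul hw (dep_mv (K := K) j)]
  have e : cx μ K w (mv μ K' w av σ j) z = mv μ K w av σ j z :=
    cx_cx hw hK (hA.bm (hσ j hj)) z
  rw [e, sq]

/-- the square of the inner product. -/
theorem cx_inn_sq (hK : K ⊆ K') (z : κ → ℝ) :
    cx μ K w (fun z => inn μ K K' w av S σ z ^ 2) z ≤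
      ∑ i ∈ S, ∑ j ∈ S, mv μ K w av σ i z * mv μ K w av σ j z * mc μ K w av σ i j z := by
  have hm : ∀ j ∈ S, BM (mv μ K w av σ j) := fun j hj => bm_mv hw hA hσ hj
  set Ψ : (κ → ℝ) → ℝ := fun z => ∑ j ∈ S, mv μ K w av σ j z * av (σ j) z with hΨ
  have bΨ : BM Ψ := BM.sum S fun j hj => (hm j hj).mul (hA.bm (hσ j hj))
  have e1 : ∀ z, inn μ K K' w av S σ z = cx μ K' w Ψ z := by
    intro z
    rw [hΨ, cx_sum hw S fun j hj => (hm j hj).mul (hA.bm (hσ j hj))]
    unfold inn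
    refine Finset.sum_congr rfl fun j hj => ?_
    rw [cx_mul hw ((dep_mv (K := K) j).mono hK)]
    rfl
  have e2 : ∀ z, Ψ z ^ 2 ≤ ∑ i ∈ S, ∑ j ∈ S,
      mv μ K w av σ i z * mv μ K w av σ j z * av (fun ω => σ i ω * σ j ω) z := by
    intro z
    have b1 : Bd fun ω => ∑ j ∈ S, mv μ K w av σ j z * σ j ω :=
      Bd.sum S fun j hj => (hσ j hj).cmul _
    have f1 : Ψ z = av (fun ω => ∑ j ∈ S, mv μ K w av σ j z * σ j ω) z := by
      rw [hA.sum S fun j hj => (hσ j hj).cmul _]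
      rw [hΨ]
      refine Finset.sum_congr rfl fun j hj => ?_
      rw [hA.smul]
    have f2 := hA.sq_le b1 z
    rw [f1]
    refine f2.trans (le_of_eq ?_)
    have f3 : (fun ω => (∑ j ∈ S, mv μ K w av σ j z * σ j ω) ^ 2) = fun ω =>
        ∑ i ∈ S, ∑ j ∈ S, (mv μ K w av σ i z * mv μ K w av σ j z) * (σ i ω * σ j ω) := by
      funext ω
      rw [sq, Finset.sum_mul_sum]
      refine Finset.sum_congr rfl fun i _ => Finset.sum_congr rfl fun j _ => ?_
      ring
    rw [f3, hA.sum S fun i hi => Bd.sum S fun j hj => ((hσ i hi).mul (hσ j hj)).cmul _]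
    refine Finset.sum_congr rfl fun i hi => ?_
    rw [hA.sum S fun j hj => ((hσ i hi).mul (hσ j hj)).cmul _]
    refine Finset.sum_congr rfl fun j hj => ?_
    rw [hA.smul]
  have bR : BM fun z => ∑ i ∈ S, ∑ j ∈ S,
      mv μ K w av σ i z * mv μ K w av σ j z * av (fun ω => σ i ω * σ j ω) z :=
    BM.sum S fun i hi => BM.sum S fun j hj =>
      ((hm i hi).mul (hm j hj)).mul (hA.bm ((hσ i hi).mul (hσ j hj)))
  have e3 : cx μ K w (fun z => inn μ K K' w av S σ z ^ 2) z ≤ cx μ K w (fun z => Ψ z ^ 2) z := by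
    have g1 : cx μ K w (fun z => inn μ K K' w av S σ z ^ 2) z ≤
        cx μ K w (cx μ K' w fun z => Ψ z ^ 2) z := by
      refine cx_mono hw (bsq (bm_inn hw hA hσ)) (hw.bm_cx K' (bsq bΨ)) (fun z => ?_) z
      rw [e1 z]
      exact cx_sq_le hw bΨ z
    rwa [cx_cx hw hK (bsq bΨ)] at g1
  refine e3.trans ((cx_mono hw (bsq bΨ) bR e2 z).trans (le_of_eq ?_))
  rw [cx_sum hw S fun i hi => BM.sum S fun j hj =>
      ((hm i hi).mul (hm j hj)).mul (hA.bm ((hσ i hi).mul (hσ j hj)))]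
  refine Finset.sum_congr rfl fun i hi => ?_
  rw [cx_sum hw S fun j hj => ((hm i hi).mul (hm j hj)).mul (hA.bm ((hσ i hi).mul (hσ j hj)))]
  refine Finset.sum_congr rfl fun j hj => ?_
  rw [cx_mul hw (Dep.mul (dep_mv (K := K) i) (dep_mv (K := K) j))]
  rfl

/-- **conditional variance of the inner product.** -/
theorem q12_var (hK : K ⊆ K') (z : κ → ℝ) :
    cx μ K w (fun z => (inn μ K K' w av S σ z - q2 μ K w av S σ z) ^ 2) z ≤
      q2 μ K w av S σ z * √(rk μ K w av S σ z) := by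
  have bI := bm_inn (K := K) (K' := K') hw hA hσ
  have bq := bm_q2 (K := K) hw hA hσ
  have e0 : (fun z => (inn μ K K' w av S σ z - q2 μ K w av S σ z) ^ 2) =
      fun z => (inn μ K K' w av S σ z ^ 2 - (2 * q2 μ K w av S σ z) * inn μ K K' w av S σ z) +
        q2 μ K w av S σ z ^ 2 := by
    funext z; ring
  have d2 : Dep K fun z => 2 * q2 μ K w av S σ z := Dep.mul (Dep.const 2) dep_q2
  have e1 : cx μ K w (fun z => (inn μ K K' w av S σ z - q2 μ K w av S σ z) ^ 2) z =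
      cx μ K w (fun z => inn μ K K' w av S σ z ^ 2) z - q2 μ K w av S σ z ^ 2 := by
    rw [e0, cx_add hw ((bsq bI).sub ((bcm 2 bq).mul bI)) (bsq bq),
      cx_sub hw (bsq bI) ((bcm 2 bq).mul bI), cx_mul hw d2, cx_inn hw hA hσ hK,
      cx_dep hw (Dep.sq dep_q2)]
    ring
  rw [e1]
  have e2 := cx_inn_sq hw hA hσ hK z
  set m : J → ℝ := fun j => mv μ K w av σ j z with hm
  set C : J → J → ℝ := fun i j => mc μ K w av σ i j z with hC
  have e3 : q2 μ K w av S σ z ^ 2 = ∑ i ∈ S, ∑ j ∈ S, m i * m j * (m i * m j) := by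
    have : q2 μ K w av S σ z = ∑ j ∈ S, m j ^ 2 := rfl
    rw [this, sq, Finset.sum_mul_sum]
    refine Finset.sum_congr rfl fun i _ => Finset.sum_congr rfl fun j _ => ?_
    ring
  have e4 : cx μ K w (fun z => inn μ K K' w av S σ z ^ 2) z - q2 μ K w av S σ z ^ 2 ≤
      ∑ p ∈ S ×ˢ S, (m p.1 * m p.2) * (C p.1 p.2 - m p.1 * m p.2) := by
    rw [e3, Finset.sum_product]
    have : ∑ i ∈ S, ∑ j ∈ S, (m i * m j) * (C i j - m i * m j) =
        ∑ i ∈ S, ∑ j ∈ S, m i * m j * C i j - ∑ i ∈ S, ∑ j ∈ S, m i * m j * (m i * m j) := by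
      rw [← Finset.sum_sub_distrib]
      refine Finset.sum_congr rfl fun i _ => ?_
      rw [← Finset.sum_sub_distrib]
      refine Finset.sum_congr rfl fun j _ => ?_
      ring
    rw [this]
    linarith
  refine e4.trans ?_
  have e5 := Finset.sum_mul_sq_le_sq_mul_sq (S ×ˢ S) (fun p : J × J => m p.1 * m p.2)
    (fun p => C p.1 p.2 - m p.1 * m p.2)
  have e6 : ∑ p ∈ S ×ˢ S, (m p.1 * m p.2) ^ 2 = q2 μ K w av S σ z ^ 2 := by
    rw [e3, Finset.sum_product]
    refine Finset.sum_congr rfl fun i _ => Finset.sum_congr rfl fun j _ => ?_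
    ring
  have e7 : ∑ p ∈ S ×ˢ S, (C p.1 p.2 - m p.1 * m p.2) ^ 2 = rk μ K w av S σ z := by
    rw [Finset.sum_product]
    rfl
  rw [e6, e7] at e5
  have e8 := Real.abs_le_sqrt e5
  rw [Real.sqrt_mul (sq_nonneg _), Real.sqrt_sq (q2_nonneg z)] at e8
  exact (le_abs_self _).trans e8

omit hw hA hσ in
/-- Cauchy-Schwarz for the two mean vectors. -/
theorem inn_sq_le (z : κ → ℝ) :
    inn μ K K' w av S σ z ^ 2 ≤ q2 μ K w av S σ z * q2 μ K' w av S σ z :=
  Finset.sum_mul_sq_le_sq_mul_sq S _ _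

omit hw hA hσ in
/-- the pointwise inequality behind `q12`. -/
lemma q12_point {q q' I N L ξ : ℝ} (hN : 0 < N) (hL : 0 < L) (hξ0 : 0 < ξ) (hξ1 : ξ ≤ 1)
    (hB : L ≤ q / N) (h1 : q' / N < (1 - ξ) * (q / N)) (hI : I ^ 2 ≤ q * q') :
    ξ ^ 2 / 4 ≤ (q ^ 2)⁻¹ * (I - q) ^ 2 := by
  have hq : 0 < q := by
    have : 0 < q / N := lt_of_lt_of_le hL hB
    exact (div_pos_iff_of_pos_right hN).1 this
  have h2 : q' < (1 - ξ) * q := by
    have h3 : q' / N * N < (1 - ξ) * (q / N) * N := mul_lt_mul_of_pos_right h1 hN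
    have h4 : q' / N * N = q' := by field_simp
    have h5 : (1 - ξ) * (q / N) * N = (1 - ξ) * q := by field_simp
    rwa [h4, h5] at h3
  have h6 : I ^ 2 ≤ ((1 - ξ / 2) * q) ^ 2 := by
    have : q * q' ≤ q * ((1 - ξ) * q) := mul_le_mul_of_nonneg_left h2.le hq.le
    nlinarith [sq_nonneg (ξ * q)]
  have h7 : I ≤ (1 - ξ / 2) * q :=
    le_of_sq_le_sq h6 (mul_nonneg (by linarith) hq.le)
  have h8 : (ξ / 2 * q) ^ 2 ≤ (I - q) ^ 2 := by
    have h9 : ξ / 2 * q ≤ q - I := by linarith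
    have h10 : 0 ≤ ξ / 2 * q := by positivity
    nlinarith
  rw [inv_mul_eq_div, le_div_iff₀ (by positivity)]
  calc ξ ^ 2 / 4 * q ^ 2 = (ξ / 2 * q) ^ 2 := by ring
    _ ≤ _ := h8

/-- **[Q12]** the hypothesis `h12` of `H339.BR.big_root`: `Q' ≥ (1 - ξ) Q` off a small event. -/
theorem q12 (hK : K ⊆ K') {N L ξ : ℝ} (hN : 0 < N) (hL : 0 < L) (hξ0 : 0 < ξ) (hξ1 : ξ ≤ 1) :
    (lw μ w).real {z | L ≤ q2 μ K w av S σ z / N ∧
      q2 μ K' w av S σ z / N < (1 - ξ) * (q2 μ K w av S σ z / N)} ≤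
      4 / (ξ ^ 2 * (L * N)) * ex μ w (fun z => √(rk μ K w av S σ z)) := by
  classical
  set q := q2 μ K w av S σ with hq
  set q' := q2 μ K' w av S σ with hq'
  set I := inn μ K K' w av S σ with hI
  have bI : BM I := bm_inn hw hA hσ
  have bq : BM q := bm_q2 hw hA hσ
  have bq' : BM q' := bm_q2 hw hA hσ
  have br : BM fun z => √(rk μ K w av S σ z) := by
    obtain ⟨C, hC⟩ := (bm_rk (K := K) hw hA hσ).bd
    refine ⟨(bm_rk hw hA hσ).meas.sqrt, √C, fun z => ?_⟩
    rw [abs_of_nonneg (Real.sqrt_nonneg _)]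
    exact Real.sqrt_le_sqrt ((le_abs_self _).trans (hC z))
  set B : Set (κ → ℝ) := {z | L ≤ q z / N} with hB
  have mB : MeasurableSet B := measurableSet_le measurable_const (bq.meas.div_const N)
  set A : Set (κ → ℝ) := {z | L ≤ q z / N ∧ q' z / N < (1 - ξ) * (q z / N)} with hAd
  have mA : MeasurableSet A :=
    mB.inter (measurableSet_lt (bq'.meas.div_const N) ((bq.meas.div_const N).const_mul _))
  have hqB : ∀ z ∈ B, L * N ≤ q z := by
    intro z hz
    have : L ≤ q z / N := hz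
    rwa [le_div_iff₀ hN] at this
  have hLN : 0 < L * N := mul_pos hL hN
  -- the weight
  set g : (κ → ℝ) → ℝ := fun z => B.indicator (fun z => (q z ^ 2)⁻¹) z with hg
  have dB : Dep K (B.indicator fun _ => (1 : ℝ)) := by
    have : Dep K fun z => q z / N := fun z z' => by
      show q (glue K z z') / N = q z / N
      rw [hq, dep_q2 z z']
    exact dep_ind (Q := fun z => q z / N) this (Set.Ici L)
  have e1 : g = fun z => B.indicator (fun _ => (1 : ℝ)) z * (q z ^ 2)⁻¹ := by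
    funext z
    by_cases h : z ∈ B
    · simp only [hg, Set.indicator_of_mem h, one_mul]
    · simp only [hg, Set.indicator_of_notMem h, zero_mul]
  have dg : Dep K g := by
    rw [e1]
    refine Dep.mul dB ?_
    exact Dep.comp (fun t => (t ^ 2)⁻¹) dep_q2
  have g0 : ∀ z, 0 ≤ g z := fun z =>
    Set.indicator_nonneg (fun z _ => inv_nonneg.2 (sq_nonneg _)) z
  have bg : BM g := by
    refine ⟨Measurable.indicator ((bq.meas.pow_const 2).inv) mB, ((L * N) ^ 2)⁻¹, fun z => ?_⟩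
    rw [abs_of_nonneg (g0 z)]
    by_cases h : z ∈ B
    · simp only [hg, Set.indicator_of_mem h]
      exact inv_anti₀ (by positivity) (pow_le_pow_left₀ hLN.le (hqB z h) 2)
    · simp only [hg, Set.indicator_of_notMem h]
      positivity
  have bIq : BM fun z => (I z - q z) ^ 2 := bsq (bI.sub bq)
  -- first step: the event
  have s1 : ∀ z, ξ ^ 2 / 4 * A.indicator (fun _ => (1 : ℝ)) z ≤ g z * (I z - q z) ^ 2 := by
    intro z
    by_cases h : z ∈ A
    · rw [Set.indicator_of_mem h, mul_one]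
      have h1 : z ∈ B := h.1
      simp only [hg, Set.indicator_of_mem h1]
      exact q12_point hN hL hξ0 hξ1 h.1 h.2 (inn_sq_le z)
    · rw [Set.indicator_of_notMem h, mul_zero]
      exact mul_nonneg (g0 z) (sq_nonneg _)
  have s2 : ξ ^ 2 / 4 * ex μ w (A.indicator fun _ => (1 : ℝ)) ≤
      ex μ w (fun z => g z * (I z - q z) ^ 2) := by
    rw [← ex_cmul]
    exact ex_mono hw (bcm _ (bm_ind mA)) (bg.mul bIq) s1
  have s3 : ex μ w (fun z => g z * (I z - q z) ^ 2) ≤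
      ex μ w (fun z => (L * N)⁻¹ * √(rk μ K w av S σ z)) := by
    rw [← ex_cx hw dg bg bIq]
    refine ex_mono hw (bg.mul (hw.bm_cx K bIq)) (bcm _ br) fun z => ?_
    have h1 := mul_le_mul_of_nonneg_left (q12_var hw hA hσ hK z) (g0 z)
    refine h1.trans ?_
    have hr := Real.sqrt_nonneg (rk μ K w av S σ z)
    by_cases h : z ∈ B
    · simp only [hg, Set.indicator_of_mem h]
      have h2 := hqB z h
      have h3 : 0 < q z := lt_of_lt_of_le hLN h2
      have h4 : (q z ^ 2)⁻¹ * (q z * √(rk μ K w av S σ z)) = (q z)⁻¹ * √(rk μ K w av S σ z) := by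
        field_simp
      rw [hq] at h4 ⊢
      rw [h4]
      exact mul_le_mul_of_nonneg_right (inv_anti₀ hLN h2) hr
    · simp only [hg, Set.indicator_of_notMem h, zero_mul]
      positivity
  rw [ex_cmul] at s3
  rw [real_lw hw mA]
  have s4 : ξ ^ 2 / 4 * ex μ w (A.indicator fun _ => (1 : ℝ)) ≤
      (L * N)⁻¹ * ex μ w (fun z => √(rk μ K w av S σ z)) := s2.trans s3
  have hξ2 : 0 < ξ ^ 2 / 4 := by positivity
  calc ex μ w (A.indicator fun _ => (1 : ℝ))
      = (ξ ^ 2 / 4)⁻¹ * (ξ ^ 2 / 4 * ex μ w (A.indicator fun _ => (1 : ℝ))) := by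
        field_simp
    _ ≤ (ξ ^ 2 / 4)⁻¹ * ((L * N)⁻¹ * ex μ w (fun z => √(rk μ K w av S σ z))) :=
        mul_le_mul_of_nonneg_left s4 (inv_nonneg.2 hξ2.le)
    _ = 4 / (ξ ^ 2 * (L * N)) * ex μ w (fun z => √(rk μ K w av S σ z)) := by
        field_simp

/-- the first moment of the distance to rank one by the second. -/
theorem ex_sqrt_rk : ex μ w (fun z => √(rk μ K w av S σ z)) ≤ √(ex μ w (rk μ K w av S σ)) := by
  have br : BM fun z => √(rk μ K w av S σ z) := by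
    obtain ⟨C, hC⟩ := (bm_rk (K := K) hw hA hσ).bd
    refine ⟨(bm_rk hw hA hσ).meas.sqrt, √C, fun z => ?_⟩
    rw [abs_of_nonneg (Real.sqrt_nonneg _)]
    exact Real.sqrt_le_sqrt ((le_abs_self _).trans (hC z))
  have h1 := abs_ex_mul_le hw br (BM.const 1)
  have e1 : (fun z => √(rk μ K w av S σ z) * 1) = fun z => √(rk μ K w av S σ z) := by
    funext z; ring
  have e2 : (fun z => √(rk μ K w av S σ z) ^ 2) = rk μ K w av S σ := by
    funext z; exact Real.sq_sqrt (rk_nonneg z)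
  have e3 : ex μ w (fun _ : κ → ℝ => (1 : ℝ) ^ 2) = 1 := by
    rw [ex_const hw]; norm_num
  rw [e1, e2, e3, Real.sqrt_one, mul_one] at h1
  exact (le_abs_self _).trans h1

/-- **The exclusion of the big root in `cx`/`ex` form.** `K ⊆ K'` are the two frozen sets (the
index `1` of `H339.BR.big_root_L1` is `K'`, the index `2` is `K`), `k = cx Φ`. -/
theorem br_ex (hK : K ⊆ K') {Φ : (κ → ℝ) → ℝ} (hΦ : BM Φ) {C : ℝ} (hC : ∀ z, |Φ z| ≤ C)
    {N a τ1 τ2 v1 v2 L ξ η U g ρ p2 e1 e2 : ℝ} (hN : 0 < N)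
    (ha : 0 ≤ a) (hv : 0 ≤ v2) (hL : 0 < L) (hξ0 : 0 < ξ) (hξ : ξ ≤ 1 / 2) (hη : 0 < η)
    (hτ : τ1 ≤ τ2) (hv12 : v2 ≤ v1)
    (hreg : 2 * |τ2| * ((1 - ξ) * L) + 3 * v2 ≤ a * ((1 - ξ) * L) ^ 2)
    (hg : 0 < g)
    (hgap : g ≤ (τ2 - τ1) / U ^ 2 + (v1 - v2) / U ^ 3 - 4 * a * ξ / L - 3 * η / L)
    (hU : ex μ w ({z | U < q2 μ K' w av S σ z / N}.indicator fun _ => 1) ≤ p2)
    (hE1 : ex μ w (fun z => |cx μ K' w Φ z ^ 2 * (q2 μ K' w av S σ z / N) ^ 3
      - a * (q2 μ K' w av S σ z / N) ^ 2 - τ1 * (q2 μ K' w av S σ z / N) + v1|) ≤ e1)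
    (hE2 : ex μ w (fun z => |cx μ K w Φ z ^ 2 * (q2 μ K w av S σ z / N) ^ 3
      - a * (q2 μ K w av S σ z / N) ^ 2 - τ2 * (q2 μ K w av S σ z / N) + v2|) ≤ e2)
    (hρ : ex μ w (fun z => √(rk μ K w av S σ z)) ≤ N * ρ) :
    ex μ w ({z | L ≤ q2 μ K w av S σ z / N}.indicator fun _ => 1) ≤
      (1 + C ^ 2 / g) * (4 * ρ / (ξ ^ 2 * L) + p2 + e1 / (η * ((1 - ξ) * L) ^ 2)
        + e2 / (η * L ^ 2)) := by
  have hP := prob_lw hw
  have bq : BM fun z => q2 μ K w av S σ z / N := by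
    have h := bcm N⁻¹ (bm_q2 (K := K) hw hA hσ)
    have e : (fun z => N⁻¹ * q2 μ K w av S σ z) = fun z => q2 μ K w av S σ z / N := by
      funext z; rw [inv_mul_eq_div]
    rwa [e] at h
  have bq' : BM fun z => q2 μ K' w av S σ z / N := by
    have h := bcm N⁻¹ (bm_q2 (K := K') hw hA hσ)
    have e : (fun z => N⁻¹ * q2 μ K' w av S σ z) = fun z => q2 μ K' w av S σ z / N := by
      funext z; rw [inv_mul_eq_div]
    rwa [e] at h
  have bk := hw.bm_cx K hΦ
  have bk' := hw.bm_cx K' hΦ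
  have cube : ∀ {f : (κ → ℝ) → ℝ}, BM f → BM fun z => f z ^ 3 := by
    intro f hf
    have h := (bsq hf).mul hf
    have e : (fun z => f z ^ 2 * f z) = fun z => f z ^ 3 := by funext z; ring
    rwa [e] at h
  have bE : ∀ {k q : (κ → ℝ) → ℝ} (a τ v : ℝ), BM k → BM q →
      BM fun z => k z ^ 2 * q z ^ 3 - a * q z ^ 2 - τ * q z + v := by
    intro k q a τ v hk hq
    exact ((((bsq hk).mul (cube hq)).sub (bcm a (bsq hq))).sub (bcm τ hq)).add (BM.const v)
  have mU : MeasurableSet {z | U < q2 μ K' w av S σ z / N} :=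
    measurableSet_lt measurable_const bq'.meas
  have mB : MeasurableSet {z | L ≤ q2 μ K w av S σ z / N} :=
    measurableSet_le measurable_const bq.meas
  have dB : Dep K ({z | L ≤ q2 μ K w av S σ z / N}.indicator fun _ => (1 : ℝ)) := by
    have : Dep K fun z => q2 μ K w av S σ z / N := fun z z' => by
      show q2 μ K w av S σ (glue K z z') / N = q2 μ K w av S σ z / N
      rw [dep_q2 z z']
    exact dep_ind (Q := fun z => q2 μ K w av S σ z / N) this (Set.Ici L)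
  have h12 := q12 hw hA hσ hK hN hL hξ0 (by linarith : ξ ≤ 1)
  have h12' : (lw μ w).real {z | L ≤ q2 μ K w av S σ z / N ∧
      q2 μ K' w av S σ z / N < (1 - ξ) * (q2 μ K w av S σ z / N)} ≤ 4 * ρ / (ξ ^ 2 * L) := by
    refine h12.trans ?_
    have h1 : 4 / (ξ ^ 2 * (L * N)) * ex μ w (fun z => √(rk μ K w av S σ z)) ≤
        4 / (ξ ^ 2 * (L * N)) * (N * ρ) := mul_le_mul_of_nonneg_left hρ (by positivity)
    refine h1.trans (le_of_eq ?_)
    field_simp
  have key := H339.BR.big_root_L1 (P := lw μ w) (k1 := cx μ K' w Φ) (k2 := cx μ K w Φ)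
    (Q1 := fun z => q2 μ K' w av S σ z / N) (Q2 := fun z => q2 μ K w av S σ z / N)
    (C := C) (p2 := p2) (e1 := e1) (e2 := e2) ha hv hL hξ0.le hξ hη hτ hv12 hreg hg hgap bk'.meas bk.meas bq'.meas bq.meas
    (Filter.Eventually.of_forall fun z => hw.abs_cx_le K' hΦ hC z)
    (Filter.Eventually.of_forall fun z => hw.abs_cx_le K hΦ hC z)
    (hmono_ex hw hK hΦ mB dB) h12' (by rw [real_lw hw mU]; exact hU)
    (int_bm hw (bE a τ1 v1 bk' bq')) (int_bm hw (bE a τ2 v2 bk bq))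
    (by rw [int_lw hw]; exact hE1) (by rw [int_lw hw]; exact hE2)
  rwa [real_lw hw mB] at key

end q12

end Vale.Agent.P146.H792
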