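import Vale.Agent.P146.H792.Q12
import Vale.Agent.P146.H317.ExBridge
import Vale.Agent.P146.H615.Easm

/-!
# P146, block 11-BR: [Q12] for the amplitude means

The mean vectors `M_j = cx (av (a s_j))` with `|a - 1| ≤ η`, from rank one of the plain spins.
-/

open MeasureTheory

namespace Vale.Agent.P146.H792

open Vale.Agent.P146.H646 Vale.Agent.P146.H615

set_option linter.unusedSectionVars false

variable {κ : Type*} [Fintype κ] [DecidableEq κ] {μ : κ → Measure ℝ}
  [∀ e, IsProbabilityMeasure (μ e)] {w : (κ → ℝ) → ℝ} {K K' : Finset κ}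
  {Ω : Type*} [MeasurableSpace Ω] {av : (Ω → ℝ) → (κ → ℝ) → ℝ} {J : Type*}
  {S : Finset J} {s : J → Ω → ℝ} {a : Ω → ℝ} {η : ℝ}

/-- the amplitude means. -/
noncomputable def ma (μ : κ → Measure ℝ) [∀ e, IsProbabilityMeasure (μ e)] (K : Finset κ)
    (w : (κ → ℝ) → ℝ) (av : (Ω → ℝ) → (κ → ℝ) → ℝ) (a : Ω → ℝ) (s : J → Ω → ℝ) (j : J)
    (z : κ → ℝ) : ℝ := cx μ K w (av fun ω => a ω * s j ω) z

lemma cx_sqrt (hw : Wt μ w) {f : (κ → ℝ) → ℝ} (hf : BM f) (h0 : ∀ z, 0 ≤ f z) (z : κ → ℝ) :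
    cx μ K w (fun z => √(f z)) z ≤ √(cx μ K w f z) := by
  have h1 := cx_sq_le hw (K := K) (bm_sqrt hf) z
  have e : (fun z => √(f z) ^ 2) = f := by funext z; exact Real.sq_sqrt (h0 z)
  rw [e] at h1
  exact (le_abs_self _).trans (Real.abs_le_sqrt h1)

/-- the Frobenius norm of the second moments. -/
lemma fro_le (S : Finset J) (m : J → ℝ) (C : J → J → ℝ) :
    √(∑ i ∈ S, ∑ j ∈ S, C i j ^ 2) ≤
      ∑ j ∈ S, m j ^ 2 + √(∑ i ∈ S, ∑ j ∈ S, (C i j - m i * m j) ^ 2) := by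
  set q := ∑ j ∈ S, m j ^ 2 with hq
  set k := ∑ i ∈ S, ∑ j ∈ S, (C i j - m i * m j) ^ 2 with hk
  have hq0 : 0 ≤ q := Finset.sum_nonneg fun _ _ => sq_nonneg _
  have hk0 : 0 ≤ k := Finset.sum_nonneg fun _ _ => Finset.sum_nonneg fun _ _ => sq_nonneg _
  have e5 := Finset.sum_mul_sq_le_sq_mul_sq (S ×ˢ S) (fun p : J × J => m p.1 * m p.2)
    (fun p => C p.1 p.2 - m p.1 * m p.2)
  have e3 : q ^ 2 = ∑ i ∈ S, ∑ j ∈ S, (m i * m j) ^ 2 := by
    rw [hq, sq, Finset.sum_mul_sum]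
    refine Finset.sum_congr rfl fun i _ => Finset.sum_congr rfl fun j _ => ?_
    ring
  have e6 : ∑ p ∈ S ×ˢ S, (m p.1 * m p.2) ^ 2 = q ^ 2 := by
    rw [e3, Finset.sum_product]
  have e7 : ∑ p ∈ S ×ˢ S, (C p.1 p.2 - m p.1 * m p.2) ^ 2 = k := by
    rw [Finset.sum_product]
  rw [e6, e7] at e5
  have e8 := Real.abs_le_sqrt e5
  rw [Real.sqrt_mul (sq_nonneg _), Real.sqrt_sq hq0] at e8
  have e9 := (le_abs_self _).trans e8
  rw [Finset.sum_product] at e9
  have e10 : ∑ i ∈ S, ∑ j ∈ S, C i j ^ 2 =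
      q ^ 2 + 2 * (∑ i ∈ S, ∑ j ∈ S, (m i * m j) * (C i j - m i * m j)) + k := by
    rw [e3, hk, Finset.mul_sum, ← Finset.sum_add_distrib, ← Finset.sum_add_distrib]
    refine Finset.sum_congr rfl fun i _ => ?_
    rw [Finset.mul_sum, ← Finset.sum_add_distrib, ← Finset.sum_add_distrib]
    refine Finset.sum_congr rfl fun j _ => ?_
    ring
  rw [Real.sqrt_le_left (by positivity), e10]
  have h1 : √k ^ 2 = k := Real.sq_sqrt hk0
  nlinarith

section amp

variable (hw : Wt μ w) (hA : Av av) (hs : ∀ j, Bd (s j)) (ha : Bd a)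
include hw hA hs ha

lemma bm_ma (j : J) : BM (ma μ K w av a s j) := hw.bm_cx K (hA.bm (ha.mul (hs j)))

/-- the distance of the amplitude means to the plain means. -/
theorem amp_d (hη : ∀ ω, |a ω - 1| ≤ η) (h0 : 0 ≤ η) (z : κ → ℝ) :
    ∑ j ∈ S, (ma μ K w av a s j z - mv μ K w av s j z) ^ 2 ≤
      η ^ 2 * (q2 μ K w av S s z + √(rk μ K w av S s z)) := by
  set d : J → ℝ := fun j => ma μ K w av a s j z - mv μ K w av s j z with hd
  set D := ∑ j ∈ S, d j ^ 2 with hD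
  have hD0 : 0 ≤ D := Finset.sum_nonneg fun _ _ => sq_nonneg _
  have ba : Bd fun ω => a ω - 1 := ha.sub (Bd.const 1)
  have e1 : ∀ j, d j = cx μ K w (av fun ω => (a ω - 1) * s j ω) z := by
    intro j
    have f1 : (av fun ω => (a ω - 1) * s j ω) =
        fun z => (av fun ω => a ω * s j ω) z - av (s j) z := by
      funext y
      rw [← hA.sub (ha.mul (hs j)) (hs j)]
      congr 1
      funext ω
      ring
    rw [f1, cx_sub hw (hA.bm (ha.mul (hs j))) (hA.bm (hs j))]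
    rfl
  have bds : Bd fun ω => ∑ j ∈ S, d j * s j ω := Bd.sum S fun j _ => (hs j).cmul _
  have e2 : D = cx μ K w (av fun ω => (a ω - 1) * ∑ j ∈ S, d j * s j ω) z := by
    have f1 : (av fun ω => (a ω - 1) * ∑ j ∈ S, d j * s j ω) =
        fun y => ∑ j ∈ S, d j * av (fun ω => (a ω - 1) * s j ω) y := by
      funext y
      have f2 : (fun ω => (a ω - 1) * ∑ j ∈ S, d j * s j ω) =
          fun ω => ∑ j ∈ S, d j * ((a ω - 1) * s j ω) := by
        funext ω
        rw [Finset.mul_sum]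
        refine Finset.sum_congr rfl fun j _ => ?_
        ring
      rw [f2, hA.sum S fun j _ => (ba.mul (hs j)).cmul _]
      refine Finset.sum_congr rfl fun j _ => ?_
      rw [hA.smul]
    rw [f1, cx_sum hw S fun j _ => bcm _ (hA.bm (ba.mul (hs j)))]
    rw [hD]
    refine Finset.sum_congr rfl fun j _ => ?_
    rw [cx_const_mul hw, ← e1 j, sq]
  have e3 : D ≤ η * √(∑ i ∈ S, ∑ j ∈ S, d i * d j * mc μ K w av s i j z) := by
    have b1 : BM (av fun ω => (a ω - 1) * ∑ j ∈ S, d j * s j ω) := hA.bm (ba.mul bds)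
    have b2 : BM (av fun ω => (∑ j ∈ S, d j * s j ω) ^ 2) := hA.bm bds.sq
    have f1 : D ≤ cx μ K w (fun y => η * √(av (fun ω => (∑ j ∈ S, d j * s j ω) ^ 2) y)) z := by
      rw [e2]
      refine cx_mono hw b1 (bcm η (bm_sqrt b2)) (fun y => ?_) z
      exact (le_abs_self _).trans (hA.abs_mul_le ba hη bds y)
    rw [cx_const_mul hw] at f1
    have f2 := cx_sqrt (K := K) hw b2 (fun y => hA.nonneg bds.sq (fun ω => sq_nonneg _) y) z
    have f3 : cx μ K w (av fun ω => (∑ j ∈ S, d j * s j ω) ^ 2) z =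
        ∑ i ∈ S, ∑ j ∈ S, d i * d j * mc μ K w av s i j z := by
      have g1 : (av fun ω => (∑ j ∈ S, d j * s j ω) ^ 2) =
          fun y => ∑ i ∈ S, ∑ j ∈ S, (d i * d j) * av (fun ω => s i ω * s j ω) y := by
        funext y
        have g2 : (fun ω => (∑ j ∈ S, d j * s j ω) ^ 2) =
            fun ω => ∑ i ∈ S, ∑ j ∈ S, (d i * d j) * (s i ω * s j ω) := by
          funext ω
          rw [sq, Finset.sum_mul_sum]
          refine Finset.sum_congr rfl fun i _ => Finset.sum_congr rfl fun j _ => ?_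
          ring
        rw [g2, hA.sum S fun i _ => Bd.sum S fun j _ => ((hs i).mul (hs j)).cmul _]
        refine Finset.sum_congr rfl fun i _ => ?_
        rw [hA.sum S fun j _ => ((hs i).mul (hs j)).cmul _]
        refine Finset.sum_congr rfl fun j _ => ?_
        rw [hA.smul]
      rw [g1, cx_sum hw S fun i _ => BM.sum S fun j _ => bcm _ (hA.bm ((hs i).mul (hs j)))]
      refine Finset.sum_congr rfl fun i _ => ?_
      rw [cx_sum hw S fun j _ => bcm _ (hA.bm ((hs i).mul (hs j)))]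
      refine Finset.sum_congr rfl fun j _ => ?_
      rw [cx_const_mul hw]
      rfl
    rw [f3] at f2
    exact f1.trans (mul_le_mul_of_nonneg_left f2 h0)
  set F := ∑ i ∈ S, ∑ j ∈ S, mc μ K w av s i j z ^ 2 with hF
  have e4 : ∑ i ∈ S, ∑ j ∈ S, d i * d j * mc μ K w av s i j z ≤ D * √F := by
    have g5 := Finset.sum_mul_sq_le_sq_mul_sq (S ×ˢ S) (fun p : J × J => d p.1 * d p.2)
      (fun p => mc μ K w av s p.1 p.2 z)
    have g6 : ∑ p ∈ S ×ˢ S, (d p.1 * d p.2) ^ 2 = D ^ 2 := by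
      rw [Finset.sum_product, hD, sq, Finset.sum_mul_sum]
      refine Finset.sum_congr rfl fun i _ => Finset.sum_congr rfl fun j _ => ?_
      ring
    have g7 : ∑ p ∈ S ×ˢ S, mc μ K w av s p.1 p.2 z ^ 2 = F := by
      rw [Finset.sum_product]
    rw [g6, g7] at g5
    have g8 := Real.abs_le_sqrt g5
    rw [Real.sqrt_mul (sq_nonneg _), Real.sqrt_sq hD0] at g8
    have g9 := (le_abs_self _).trans g8
    rw [Finset.sum_product] at g9
    exact g9
  have e5 : D ^ 2 ≤ η ^ 2 * (D * √F) := by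
    have f1 : D ≤ η * √(D * √F) :=
      e3.trans (mul_le_mul_of_nonneg_left (Real.sqrt_le_sqrt e4) h0)
    have f2 : 0 ≤ D * √F := mul_nonneg hD0 (Real.sqrt_nonneg _)
    calc D ^ 2 ≤ (η * √(D * √F)) ^ 2 := pow_le_pow_left₀ hD0 f1 2
      _ = η ^ 2 * (D * √F) := by rw [mul_pow, Real.sq_sqrt f2]
  have e6 : D ≤ η ^ 2 * √F := by
    rcases hD0.eq_or_lt with h | h
    · rw [← h]; positivity
    · have f1 : D * D ≤ D * (η ^ 2 * √F) := by nlinarith
      exact le_of_mul_le_mul_left f1 h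
  refine e6.trans (mul_le_mul_of_nonneg_left ?_ (sq_nonneg _))
  exact fro_le S (fun j => mv μ K w av s j z) (fun i j => mc μ K w av s i j z)

/-- `|M^a|²` from above. -/
theorem amp_up (hη : ∀ ω, |a ω - 1| ≤ η) (h0 : 0 < η) (z : κ → ℝ) :
    m2 S (ma μ K w av a s) z ≤
      (1 + η) ^ 2 * q2 μ K w av S s z + η * (1 + η) * √(rk μ K w av S s z) := by
  have h1 := amp_d (K := K) (S := S) hw hA hs ha hη h0.le z
  have h2 : m2 S (ma μ K w av a s) z ≤ (1 + η) * q2 μ K w av S s z +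
      (1 + 1 / η) * ∑ j ∈ S, (ma μ K w av a s j z - mv μ K w av s j z) ^ 2 := by
    unfold m2 q2
    rw [Finset.mul_sum, Finset.mul_sum, ← Finset.sum_add_distrib]
    refine Finset.sum_le_sum fun j _ => ?_
    set m := mv μ K w av s j z
    set v := ma μ K w av a s j z
    have h3 : 0 ≤ (η * m - (v - m)) ^ 2 / η := by positivity
    have h4 : (η * m - (v - m)) ^ 2 / η = η * m ^ 2 - 2 * m * (v - m) + 1 / η * (v - m) ^ 2 := by
      field_simp
      ring
    nlinarith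
  have h5 : (1 + 1 / η) * ∑ j ∈ S, (ma μ K w av a s j z - mv μ K w av s j z) ^ 2 ≤
      (1 + 1 / η) * (η ^ 2 * (q2 μ K w av S s z + √(rk μ K w av S s z))) :=
    mul_le_mul_of_nonneg_left h1 (by positivity)
  have h6 : (1 + 1 / η) * (η ^ 2 * (q2 μ K w av S s z + √(rk μ K w av S s z))) =
      η * (1 + η) * (q2 μ K w av S s z + √(rk μ K w av S s z)) := by
    field_simp
    ring
  nlinarith

/-- `|M^a|²` from below. -/
theorem amp_dn (hη : ∀ ω, |a ω - 1| ≤ η) (h0 : 0 < η) (z : κ → ℝ) :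
    q2 μ K w av S s z ≤ (1 + η) * m2 S (ma μ K w av a s) z +
      η * (1 + η) * (q2 μ K w av S s z + √(rk μ K w av S s z)) := by
  have h1 := amp_d (K := K) (S := S) hw hA hs ha hη h0.le z
  have h2 : q2 μ K w av S s z ≤ (1 + η) * m2 S (ma μ K w av a s) z +
      (1 + 1 / η) * ∑ j ∈ S, (ma μ K w av a s j z - mv μ K w av s j z) ^ 2 := by
    unfold m2 q2
    rw [Finset.mul_sum, Finset.mul_sum, ← Finset.sum_add_distrib]
    refine Finset.sum_le_sum fun j _ => ?_
    set m := mv μ K w av s j z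
    set v := ma μ K w av a s j z
    have h3 : 0 ≤ (η * v + (v - m)) ^ 2 / η := by positivity
    have h4 : (η * v + (v - m)) ^ 2 / η = η * v ^ 2 + 2 * v * (v - m) + 1 / η * (v - m) ^ 2 := by
      field_simp
      ring
    nlinarith
  have h5 : (1 + 1 / η) * ∑ j ∈ S, (ma μ K w av a s j z - mv μ K w av s j z) ^ 2 ≤
      (1 + 1 / η) * (η ^ 2 * (q2 μ K w av S s z + √(rk μ K w av S s z))) :=
    mul_le_mul_of_nonneg_left h1 (by positivity)
  have h6 : (1 + 1 / η) * (η ^ 2 * (q2 μ K w av S s z + √(rk μ K w av S s z))) =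
      η * (1 + η) * (q2 μ K w av S s z + √(rk μ K w av S s z)) := by
    field_simp
    ring
  linarith

end amp

/-- real arithmetic of the event. -/
lemma amp_event {V1 V2 P1 P2 k1 k2 A η ξ : ℝ} (hA : 0 < A) (hη0 : 0 < η) (hηξ : 16 * η ≤ ξ)
    (hξ : ξ ≤ 1 / 2) (hV2 : A ≤ V2) (hV1 : V1 < (1 - ξ) * V2) (hk1 : k1 ≤ A) (hk2 : k2 ≤ A)
    (_hP1 : 0 ≤ P1) (hu : V2 ≤ (1 + η) ^ 2 * P2 + η * (1 + η) * k2)
    (hd : P1 ≤ (1 + η) * V1 + η * (1 + η) * (P1 + k1)) :
    A / 2 ≤ P2 ∧ P1 < (1 - ξ / 2) * P2 := by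
  have hη1 : η ≤ 1 / 32 := by linarith
  have hV0 : 0 < V2 := lt_of_lt_of_le hA hV2
  have h1 : V2 * (1 - η - η ^ 2) ≤ (1 + η) ^ 2 * P2 := by
    have : η * (1 + η) * k2 ≤ η * (1 + η) * V2 :=
      mul_le_mul_of_nonneg_left (hk2.trans hV2) (by positivity)
    nlinarith
  have h2 : P1 * (1 - η - η ^ 2) < (1 + η) * (1 - ξ + η) * V2 := by
    have g1 : η * (1 + η) * k1 ≤ η * (1 + η) * V2 :=
      mul_le_mul_of_nonneg_left (hk1.trans hV2) (by positivity)
    have g2 : (1 + η) * V1 < (1 + η) * ((1 - ξ) * V2) :=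
      mul_lt_mul_of_pos_left hV1 (by positivity)
    nlinarith
  have hc : 0 < 1 - η - η ^ 2 := by nlinarith
  have hP2 : 0 < P2 := by
    have : 0 < (1 + η) ^ 2 * P2 := lt_of_lt_of_le (mul_pos hV0 hc) h1
    exact (mul_pos_iff_of_pos_left (by positivity)).1 this
  constructor
  · have g1 : A * (1 - η - η ^ 2) ≤ (1 + η) ^ 2 * P2 :=
      (mul_le_mul_of_nonneg_right hV2 hc.le).trans h1
    have g2 : (1 + η) ^ 2 * P2 ≤ 35 / 32 * P2 :=
      mul_le_mul_of_nonneg_right (by nlinarith) hP2.le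
    have g3 : A * (15 / 16) ≤ A * (1 - η - η ^ 2) :=
      mul_le_mul_of_nonneg_left (by nlinarith) hA.le
    linarith
  · -- P1 c^2 < (1+η)(1-ξ+η) V2 c ≤ (1+η)^3 (1-ξ+η) P2 ≤ (1-ξ/2) c^2 P2
    have hx : 0 < 1 - ξ + η := by linarith
    have g1 : P1 * (1 - η - η ^ 2) * (1 - η - η ^ 2) <
        (1 + η) * (1 - ξ + η) * V2 * (1 - η - η ^ 2) := mul_lt_mul_of_pos_right h2 hc
    have g2 : (1 + η) * (1 - ξ + η) * (V2 * (1 - η - η ^ 2)) ≤
        (1 + η) * (1 - ξ + η) * ((1 + η) ^ 2 * P2) :=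
      mul_le_mul_of_nonneg_left h1 (by positivity)
    have g3 : (1 + η) ^ 3 * (1 - ξ + η) ≤ (1 - ξ / 2) * (1 - η - η ^ 2) ^ 2 := by
      have i1 : (1 + η) ^ 3 ≤ 1 + 4 * η := by nlinarith [sq_nonneg η]
      have i2 : 1 - 3 * η ≤ (1 - η - η ^ 2) ^ 2 := by nlinarith [sq_nonneg η]
      have i3 : (1 + η) ^ 3 * (1 - ξ + η) ≤ (1 + 4 * η) * (1 - ξ + η) :=
        mul_le_mul_of_nonneg_right i1 hx.le
      have i4 : (1 - ξ / 2) * (1 - 3 * η) ≤ (1 - ξ / 2) * (1 - η - η ^ 2) ^ 2 :=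
        mul_le_mul_of_nonneg_left i2 (by linarith)
      have i5 : (1 + 4 * η) * (1 - ξ + η) ≤ (1 - ξ / 2) * (1 - 3 * η) := by nlinarith
      linarith
    have g4 : (1 + η) ^ 3 * (1 - ξ + η) * P2 ≤ (1 - ξ / 2) * (1 - η - η ^ 2) ^ 2 * P2 :=
      mul_le_mul_of_nonneg_right g3 hP2.le
    have g5 : P1 * (1 - η - η ^ 2) ^ 2 < (1 - ξ / 2) * P2 * (1 - η - η ^ 2) ^ 2 := by nlinarith
    exact lt_of_mul_lt_mul_right g5 (sq_nonneg _)

/-- **[Q12] for the amplitude means**, the hypothesis `h12` of `H317.br_ex`. -/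
theorem h12_amp (hw : Wt μ w) (hA : Av av) (hs : ∀ j, Bd (s j)) (ha : Bd a)
    (hη : ∀ ω, |a ω - 1| ≤ η) (h0 : 0 < η) (hK : K ⊆ K') {N L ξ : ℝ} (hN : 0 < N) (hL : 0 < L)
    (hηξ : 16 * η ≤ ξ) (hξ : ξ ≤ 1 / 2) :
    ex μ w ({z | L ≤ m2 S (ma μ K w av a s) z / N ∧
      m2 S (ma μ K' w av a s) z / N < (1 - ξ) * (m2 S (ma μ K w av a s) z / N)}.indicator 1) ≤
      32 / (ξ ^ 2 * (L * N)) * ex μ w (fun z => √(rk μ K w av S s z)) +
        1 / (L * N) * (ex μ w (fun z => √(rk μ K' w av S s z)) +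
          ex μ w (fun z => √(rk μ K w av S s z))) := by
  have hLN : 0 < L * N := mul_pos hL hN
  have hξ0 : 0 < ξ := by linarith
  have hσ : ∀ j ∈ S, Bd (s j) := fun j _ => hs j
  have bV : ∀ K : Finset κ, BM (m2 S (ma μ K w av a s)) := fun K =>
    BM.sum S fun j _ => bsq (bm_ma hw hA hs ha j)
  have bk : ∀ K : Finset κ, BM fun z => √(rk μ K w av S s z) := fun K =>
    bm_sqrt (bm_rk hw hA hσ)
  have bq : ∀ K : Finset κ, BM (q2 μ K w av S s) := fun K => bm_q2 hw hA hσ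
  set A1 : Set (κ → ℝ) := {z | L ≤ m2 S (ma μ K w av a s) z / N ∧
      m2 S (ma μ K' w av a s) z / N < (1 - ξ) * (m2 S (ma μ K w av a s) z / N)} with hA1
  set A2 : Set (κ → ℝ) := {z | L / 2 ≤ q2 μ K w av S s z / N ∧
      q2 μ K' w av S s z / N < (1 - ξ / 2) * (q2 μ K w av S s z / N)} with hA2
  have mA1 : MeasurableSet A1 :=
    (measurableSet_le measurable_const ((bV K).meas.div_const N)).inter
      (measurableSet_lt ((bV K').meas.div_const N) (((bV K).meas.div_const N).const_mul _))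
  have mA2 : MeasurableSet A2 :=
    (measurableSet_le measurable_const ((bq K).meas.div_const N)).inter
      (measurableSet_lt ((bq K').meas.div_const N) (((bq K).meas.div_const N).const_mul _))
  have hpt : ∀ z, A1.indicator (1 : (κ → ℝ) → ℝ) z ≤ A2.indicator (fun _ => (1 : ℝ)) z +
      1 / (L * N) * (√(rk μ K' w av S s z) + √(rk μ K w av S s z)) := by
    intro z
    have r1 := Real.sqrt_nonneg (rk μ K' w av S s z)
    have r2 := Real.sqrt_nonneg (rk μ K w av S s z)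
    have i2 : 0 ≤ A2.indicator (fun _ => (1 : ℝ)) z :=
      Set.indicator_nonneg (fun _ _ => zero_le_one) z
    by_cases h : z ∈ A1
    · rw [Set.indicator_of_mem h, Pi.one_apply]
      by_cases h1 : √(rk μ K' w av S s z) ≤ L * N
      · by_cases h2 : √(rk μ K w av S s z) ≤ L * N
        · have hV2 : L * N ≤ m2 S (ma μ K w av a s) z := by
            have := h.1
            rwa [le_div_iff₀ hN] at this
          have hV1 : m2 S (ma μ K' w av a s) z < (1 - ξ) * m2 S (ma μ K w av a s) z := by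
            have h3 := mul_lt_mul_of_pos_right h.2 hN
            have h4 : m2 S (ma μ K' w av a s) z / N * N = m2 S (ma μ K' w av a s) z := by
              field_simp
            have h5 : (1 - ξ) * (m2 S (ma μ K w av a s) z / N) * N =
                (1 - ξ) * m2 S (ma μ K w av a s) z := by field_simp
            rwa [h4, h5] at h3
          have h6 := amp_event hLN h0 hηξ hξ hV2 hV1 h1 h2 (q2_nonneg z)
            (amp_up hw hA hs ha hη h0 z) (amp_dn hw hA hs ha hη h0 z)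
          have h7 : z ∈ A2 := by
            refine ⟨?_, ?_⟩
            · rw [le_div_iff₀ hN]
              linarith [h6.1]
            · rw [mul_div_assoc', div_lt_div_iff_of_pos_right hN]
              exact h6.2
          rw [Set.indicator_of_mem h7]
          have : 0 ≤ 1 / (L * N) * (√(rk μ K' w av S s z) + √(rk μ K w av S s z)) := by
            positivity
          linarith
        · have h3 : 1 ≤ 1 / (L * N) * √(rk μ K w av S s z) := by
            rw [one_div, inv_mul_eq_div, le_div_iff₀ hLN]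
            linarith
          have h4 : 0 ≤ 1 / (L * N) * √(rk μ K' w av S s z) := by positivity
          rw [mul_add]
          linarith
      · have h3 : 1 ≤ 1 / (L * N) * √(rk μ K' w av S s z) := by
          rw [one_div, inv_mul_eq_div, le_div_iff₀ hLN]
          linarith
        have h4 : 0 ≤ 1 / (L * N) * √(rk μ K w av S s z) := by positivity
        rw [mul_add]
        linarith
    · rw [Set.indicator_of_notMem h]
      have : 0 ≤ 1 / (L * N) * (√(rk μ K' w av S s z) + √(rk μ K w av S s z)) := by positivity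
      linarith
  have b1 : BM (A1.indicator (1 : (κ → ℝ) → ℝ)) := H317.bm_indicator mA1
  have s1 := ex_mono hw b1 ((bm_ind mA2).add (bcm (1 / (L * N)) ((bk K').add (bk K)))) hpt
  rw [ex_add hw (bm_ind mA2) (bcm _ ((bk K').add (bk K))), ex_cmul, ex_add hw (bk K') (bk K)] at s1
  have s2 := q12 hw hA hσ hK hN (half_pos hL) (half_pos hξ0) (by linarith : ξ / 2 ≤ 1)
  rw [real_lw hw mA2] at s2
  have s3 : 4 / ((ξ / 2) ^ 2 * (L / 2 * N)) = 32 / (ξ ^ 2 * (L * N)) := by
    field_simp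
    norm_num
  rw [s3] at s2
  linarith

end Vale.Agent.P146.H792
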